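import Mathlib.Analysis.Normed.Operator.Compact.Basic
import Mathlib.Analysis.Normed.Operator.BoundedLinearMaps
import Mathlib.Analysis.Normed.Module.FiniteDimension
import Mathlib.Combinatorics.SimpleGraph.Metric

/-! Definitions: the Lipschitz-free space of a pointed metric space, described without reference to
the space of Lipschitz functions, and the bounded approximation property for finite rank operators
and for compact operators. -/

namespace Vale.Agent.P090.H117

/-- `X`, together with the map `δ : M → X`, is the Lipschitz-free space of the metric space `M` with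
base point `o`: `X` is a Banach space, the vectors `δ x` span a dense subspace, and the norm of a
finite combination `∑ a_x δ_x` is the supremum of `∑ a_x f(x)` over all functions `f : M → ℝ` with
Lipschitz constant at most `1` and `f o = 0`. -/
structure IsLipFree {M : Type} [MetricSpace M] (o : M) (X : Type) [NormedAddCommGroup X]
    [NormedSpace ℝ X] (δ : M → X) : Prop where
  complete : CompleteSpace X
  dense : Dense (Submodule.span ℝ (Set.range δ) : Set X)
  norm : ∀ a : M →₀ ℝ, ‖a.sum fun x c => c • δ x‖ =
    sSup {s : ℝ | ∃ f : M → ℝ, LipschitzWith 1 f ∧ f o = 0 ∧ s = a.sum fun x c => c * f x}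

/-- The bounded approximation property. -/
def HasBAP (X : Type) [NormedAddCommGroup X] [NormedSpace ℝ X] : Prop :=
  ∃ lam : ℝ, ∀ K : Set X, IsCompact K → ∀ ε > 0, ∃ T : X →L[ℝ] X,
    FiniteDimensional ℝ (LinearMap.range (T : X →ₗ[ℝ] X)) ∧ ‖T‖ ≤ lam ∧ ∀ u ∈ K, ‖T u - u‖ < ε

/-- The bounded compact approximation property: the same with compact operators. -/
def HasCompactBAP (X : Type) [NormedAddCommGroup X] [NormedSpace ℝ X] : Prop :=
  ∃ lam : ℝ, ∀ K : Set X, IsCompact K → ∀ ε > 0, ∃ T : X →L[ℝ] X,
    IsCompactOperator T ∧ ‖T‖ ≤ lam ∧ ∀ u ∈ K, ‖T u - u‖ < ε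

end Vale.Agent.P090.H117
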