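import Vale.Agent.P090.Bdl.B1
import Vale.Agent.P090.H117.Defs

/-! The strong failure of the bounded approximation property for the counterexample: no compact
operator of norm at most `lam` is within `r` of the identity on a certain finite set of points. -/

namespace Vale.Agent.P090.H117

open Vale.Agent.P090

set_option maxSynthPendingDepth 3

noncomputable section

section Tail

variable {M : Type} [MetricSpace M] {o : M}

/-- Uniform tail estimate for a compact operator. -/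
theorem compact_tail {T : ↥(LipSpan M o) →L[ℝ] ↥(LipSpan M o)} (hT : IsCompactOperator T) (r : ℝ)
    {ε : ℝ} (hε : 0 < ε) :
    ∃ M₀ : Finset M, ∀ u : ↥(LipSpan M o), ‖u‖ ≤ r → ∀ φ : Lip0 M o, (∀ z ∈ M₀, φ z = 0) →
      |((T u : ↥(LipSpan M o)) : Lip0 M o →L[ℝ] ℝ) φ| ≤ ε * ‖φ‖ := by
  classical
  have hK : IsCompact (closure ((T : ↥(LipSpan M o) →ₗ[ℝ] ↥(LipSpan M o)) ''
      Metric.closedBall 0 r)) :=
    IsCompactOperator.isCompact_closure_image_closedBall (𝕜₁ := ℝ)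
      (f := (T : ↥(LipSpan M o) →ₗ[ℝ] ↥(LipSpan M o))) hT r
  obtain ⟨t, ht, hcov⟩ := Metric.totallyBounded_iff.1 hK.totallyBounded (ε / 2) (half_pos hε)
  have hch := fun y : ↥(LipSpan M o) => lipFree_tail y (half_pos hε)
  choose N hN using hch
  refine ⟨ht.toFinset.biUnion N, fun u hu φ hφ => ?_⟩
  have hmem : T u ∈ closure ((T : ↥(LipSpan M o) →ₗ[ℝ] ↥(LipSpan M o)) ''
      Metric.closedBall 0 r) :=
    subset_closure ⟨u, by simpa only [Metric.mem_closedBall, dist_zero_right] using hu, rfl⟩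
  obtain ⟨y, hy, hyμ⟩ := Set.mem_iUnion₂.1 (hcov hmem)
  have h1 := hN y φ fun z hz => hφ z (Finset.mem_biUnion.2 ⟨y, by
    simpa only [Set.Finite.mem_toFinset] using hy, hz⟩)
  have h2 : |((T u - y : ↥(LipSpan M o)) : Lip0 M o →L[ℝ] ℝ) φ| ≤ ε / 2 * ‖φ‖ := by
    rw [← Real.norm_eq_abs]
    refine (ContinuousLinearMap.le_opNorm _ _).trans ?_
    refine mul_le_mul_of_nonneg_right ?_ (norm_nonneg _)
    have : ‖T u - y‖ < ε / 2 := by
      rw [← dist_eq_norm]; exact Metric.mem_ball.1 hyμ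
    exact this.le
  have h3 : ((T u : ↥(LipSpan M o)) : Lip0 M o →L[ℝ] ℝ) φ =
      ((T u - y : ↥(LipSpan M o)) : Lip0 M o →L[ℝ] ℝ) φ + (y : Lip0 M o →L[ℝ] ℝ) φ := by
    simp only [AddSubgroupClass.coe_sub, sub_apply, sub_add_cancel]
  rw [h3]
  refine (abs_add_le _ _).trans ((add_le_add h2 h1).trans ?_)
  linarith only []

/-- The data extracted from a compact operator close to the identity on a finite set. -/
theorem fa_compact {lam ε : ℝ} {T : ↥(LipSpan M o) →L[ℝ] ↥(LipSpan M o)}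
    (hT : IsCompactOperator T) (hn : ‖T‖ ≤ lam) (A : Finset M)
    (hc : ∀ m ∈ A, ‖T (deltaF o m) - deltaF o m‖ ≤ ε) :
    ∃ L : M → (Lip0 M o →ₗ[ℝ] ℝ),
      (∀ m m' φ, |L m φ - L m' φ| ≤ lam * ‖φ‖ * dist m m') ∧
      (∀ m ∈ A, ∀ φ, |L m φ - φ m| ≤ ε * ‖φ‖) ∧
      (∀ D : ℝ, ∀ η > 0, ∃ M₀ : Finset M, ∀ m : M, dist m o ≤ D → ∀ φ : Lip0 M o,
        (∀ z ∈ M₀, φ z = 0) → |L m φ| ≤ η * ‖φ‖) := by
  classical
  have hlam : 0 ≤ lam := (norm_nonneg T).trans hn
  refine ⟨fun m => ((T (deltaF o m) : ↥(LipSpan M o)) : Lip0 M o →L[ℝ] ℝ), ?_, ?_, ?_⟩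
  · intro m m' φ
    have h1 : ((T (deltaF o m) : ↥(LipSpan M o)) : Lip0 M o →L[ℝ] ℝ) φ
        - ((T (deltaF o m') : ↥(LipSpan M o)) : Lip0 M o →L[ℝ] ℝ) φ
        = ((T (deltaF o m - deltaF o m') : ↥(LipSpan M o)) : Lip0 M o →L[ℝ] ℝ) φ := by
      rw [map_sub]; simp only [AddSubgroupClass.coe_sub, sub_apply]
    change |((T (deltaF o m) : ↥(LipSpan M o)) : Lip0 M o →L[ℝ] ℝ) φ
        - ((T (deltaF o m') : ↥(LipSpan M o)) : Lip0 M o →L[ℝ] ℝ) φ| ≤ _
    rw [h1, ← Real.norm_eq_abs]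
    refine (ContinuousLinearMap.le_opNorm _ _).trans ?_
    have h2 : ‖T (deltaF o m - deltaF o m')‖ ≤ lam * dist m m' :=
      (T.le_opNorm _).trans (mul_le_mul hn (norm_deltaF_sub_le m m') (norm_nonneg _) hlam)
    calc ‖((T (deltaF o m - deltaF o m') : ↥(LipSpan M o)) : Lip0 M o →L[ℝ] ℝ)‖ * ‖φ‖
        ≤ (lam * dist m m') * ‖φ‖ := mul_le_mul_of_nonneg_right h2 (norm_nonneg _)
      _ = lam * ‖φ‖ * dist m m' := by ring
  · intro m hm φ
    have h1 := hc m hm
    have h2 : ((T (deltaF o m) : ↥(LipSpan M o)) : Lip0 M o →L[ℝ] ℝ) φ - φ m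
        = ((T (deltaF o m) - deltaF o m : ↥(LipSpan M o)) : Lip0 M o →L[ℝ] ℝ) φ := by
      simp only [deltaF, AddSubgroupClass.coe_sub, sub_apply, delta_apply]
    change |((T (deltaF o m) : ↥(LipSpan M o)) : Lip0 M o →L[ℝ] ℝ) φ - φ m| ≤ _
    rw [h2, ← Real.norm_eq_abs]
    refine (ContinuousLinearMap.le_opNorm _ _).trans ?_
    exact mul_le_mul_of_nonneg_right h1 (norm_nonneg _)
  · intro D η hη
    obtain ⟨M₀, hM₀⟩ := compact_tail hT D hη
    exact ⟨M₀, fun m hm φ hφ => hM₀ (deltaF o m) ((norm_delta_le m).trans hm) φ hφ⟩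

end Tail

/-- the strong failure of the bounded approximation property, for the concrete free space -/
def Fails (M : Type) [MetricSpace M] (o : M) : Prop :=
  ∀ lam r : ℝ, ∃ A : Finset M, ∀ T : ↥(LipSpan M o) →L[ℝ] ↥(LipSpan M o), IsCompactOperator T →
    ‖T‖ ≤ lam → ∃ x ∈ A, r < ‖T (deltaF o x) - deltaF o x‖

/-- A glued space containing a block with large index: no compact operator of norm at most `lam`
is within `r` of the identity on the anchors. -/
theorem no_compact (j : ℕ → ℕ) (i : ℕ) (lam r : ℝ) (hr : 0 ≤ r)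
    (hk0 : 52 * (lam + r + 1) + 64 ≤ (j i : ℝ) + 1)
    {T : ↥(LipSpan (MG j) (Glue.base fun i => blk (j i))) →L[ℝ]
      ↥(LipSpan (MG j) (Glue.base fun i => blk (j i)))} (hT : IsCompactOperator T)
    (hn : ‖T‖ ≤ lam)
    (hc : ∀ u : Qt (j i),
      ‖T (deltaF _ (Glue.inc (fun i => blk (j i)) i (anc (j i) u))) -
        deltaF _ (Glue.inc (fun i => blk (j i)) i (anc (j i) u))‖ ≤ r) : False := by
  classical
  have hlam : 0 ≤ lam := (norm_nonneg T).trans hn
  set k : ℕ := j i with hkdef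
  have hk : 52 * (lam + r + 1) + 64 ≤ (k : ℝ) + 1 := hk0
  let B : ℕ → Blk := fun i => blk (j i)
  let ι : XX k → MG j := Glue.inc B i
  obtain ⟨L, hL1, hL2, hL3⟩ := fa_compact hT hn
    (Finset.univ.image (fun u : Qt k => ι (anc k u))) (by
      intro m hm
      obtain ⟨u, -, rfl⟩ := Finset.mem_image.1 hm
      exact hc u)
  obtain ⟨M0, hM0⟩ := hL3 (RR k : ℝ) (1 / 4) (by norm_num)
  let N : ℕ := M0.sup (lev j) + 1
  have hN : ∀ n (x : VN k n), ι (ver k n x) ∈ M0 → n < N := by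
    intro n x hx
    have h1 : lev j (ι (ver k n x)) ≤ M0.sup (lev j) := Finset.le_sup hx
    have h2 : lev j (ι (ver k n x)) = n := lev_ver j i n x
    omega
  have hZ4 : 4 * (2 * RR k + (gs k N - 4 - 8 * RR k) / 4) + 4 ≤ gs k N := by
    have := gs_ge k N
    omega
  obtain ⟨D, hD1, hD2, hD3, hD4⟩ := lemmaD (α := AA) (β := BB) (V := VN k N) (X := XX k)
    (Q := Qt k) Prod.fst (fun w x => coc (PN k N) (QQ k) w x) (cX k)
    (fun x => (x.2.2 : Qt k)) (pX k) (RR k) ((gs k N - 4 - 8 * RR k) / 4)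
    (fun w w' x => coc_mul w w' x) (fun w x => map_coc w x) (fun w x => norm_coc w x)
    (fun w x => third_smul w x) (cX_mul k) (pX_smul k) (ZZ k N) (ZZ_smul k N) (Sz k)
    (Sz_smul k)
    (by
      rintro z (⟨u, rfl⟩ | ⟨n, hn, x, rfl⟩)
      · rw [Sz_anc]; omega
      · rw [Sz_ver]
        have := gs_ge_SS k hn
        omega)
    (Bad k N)
    (by
      rintro z (⟨u, rfl⟩ | ⟨n, hn, x, rfl⟩)
      · left
        intro w
        exact ⟨smul_anc k w u, cX_anc k w u⟩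
      · right
        refine ⟨fun w => ⟨map_coc w x, norm_coc w x⟩, fun y w hw hc => ?_⟩
        exact ⟨n, hn, x, w, hw, hc⟩)
    (by
      intro σ hσ hσR u hu
      rw [Qt_smul] at hu
      have h1 : homQ k σ = 1 := by simpa using hu
      exact gg_spec BB (2 * RR k) σ hσ hσR h1)
    (by
      intro w hw hwn x
      exact smul_ne_of_girth (gg_spec AA (gs k N)) w hw (hwn.trans hZ4) x)
  have key := block_ineq (α := AA) (β := BB) (V := VN k N) (X := XX k) (Q := Qt k) (M := MG j)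
    (o := Glue.base B) (by simp) (k + 1) (RR k) (by omega) (le_RR k) ι
    (Glue.inc_injective B i) (pX k)
    (by
      intro a z
      rw [pX_smul]
      exact (sd_smul_le _ _).trans ((norm_cX_le k _ _).trans (by simp)))
    (fun z z' => Glue.dist_inc B i z z')
    (fun z m hm => Glue.le_dist_out B i z m hm)
    (Glue.base_not_mem B i)
    (ver k N) (fun w v => (smul_ver k w N v).symm) (ZZ k N) (ZZ_smul k N) (Bad k N) D hD1 hD2
    hD3 hD4 (fun v => anc k (v.2.2 : Qt k)) (fun v => rfl) (fun v => Or.inl ⟨_, rfl⟩)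
    lam r (1 / 4) hlam hr L hL1
    (by
      intro v f
      exact hL2 _ (Finset.mem_image_of_mem _ (Finset.mem_univ _)) f)
    (by
      intro v f hf1 hf2 hf3
      have h1 := hM0 (ι (ver k N v)) (le_of_eq (Glue.dist_inc_base B i _)) f
        (by
          intro x hx
          by_cases hxr : x ∈ Set.range ι
          · obtain ⟨z, rfl⟩ := hxr
            apply hf1
            rcases XX_cases k z with ⟨u, rfl⟩ | ⟨n, y, rfl⟩
            · exact Or.inl ⟨u, rfl⟩
            · exact Or.inr ⟨n, hN n y hx, y, rfl⟩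
          · exact hf2 x hxr)
      refine h1.trans ?_
      nlinarith only [hf3])
  have hcard : (0 : ℝ) < Fintype.card (VN k N) := by
    have : Nonempty (VN k N) := ⟨(1, fun _ => 0, 1)⟩
    exact_mod_cast Fintype.card_pos
  refine numeric hcard (lam := lam + r + 1) (by linarith) hk (card_Bad_le k N) ?_
  -- comparison of the constants
  have hK1 : (1 : ℝ) ≤ ((k + 1 : ℕ) : ℝ) := by exact_mod_cast (show 1 ≤ k + 1 by omega)
  have hK0 : (0 : ℝ) < ((k + 1 : ℕ) : ℝ) := by linarith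
  have hR0 : (0 : ℝ) < ((RR k : ℕ) : ℝ) := by
    have : 0 < RR k := by unfold RR; positivity
    exact_mod_cast this
  have e1 : lam * ((k + 1 : ℕ) : ℝ) + r ≤ (lam + r + 1) * ((k + 1 : ℕ) : ℝ) + 1 := by
    nlinarith [mul_le_mul_of_nonneg_left hK1 hr]
  have e0 : 0 ≤ lam * ((k + 1 : ℕ) : ℝ) + r := by positivity
  have e2 : (lam * ((k + 1 : ℕ) : ℝ) + r) / ((RR k : ℕ) : ℝ) ≤
      ((lam + r + 1) * ((k + 1 : ℕ) : ℝ) + 1) / ((RR k : ℕ) : ℝ) := by gcongr
  have e3 : 2 * lam / ((k + 1 : ℕ) : ℝ) ≤ 2 * (lam + r + 1) / ((k + 1 : ℕ) : ℝ) := by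
    gcongr
    linarith
  have e4 : 2 / ((RR k : ℕ) : ℝ) * (lam * ((k + 1 : ℕ) : ℝ) + r) ≤
      2 / ((RR k : ℕ) : ℝ) * ((lam + r + 1) * ((k + 1 : ℕ) : ℝ) + 1) := by gcongr
  have e5 : 2 / ((k + 1 : ℕ) : ℝ) * (lam * ((k + 1 : ℕ) : ℝ) + r) ≤
      2 / ((k + 1 : ℕ) : ℝ) * ((lam + r + 1) * ((k + 1 : ℕ) : ℝ) + 1) := by gcongr
  refine le_trans ?_ (key.trans ?_)
  · refine mul_le_mul_of_nonneg_left ?_ (by positivity)
    linarith
  · refine add_le_add (mul_le_mul_of_nonneg_left ?_ (by positivity))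
      (mul_le_mul_of_nonneg_left ?_ (by positivity))
    · linarith
    · linarith

/-- **The strong failure for the counterexample.** -/
theorem fails_MM : Fails MM (Glue.base blk) := by
  classical
  intro lam r
  obtain ⟨k, hk⟩ := exists_nat_ge (52 * (lam + max r 0 + 1) + 64)
  refine ⟨Finset.univ.image fun u : Qt k => Glue.inc blk k (anc k u), fun T hT hn => ?_⟩
  by_contra hcon
  push Not at hcon
  refine no_compact id k lam (max r 0) (le_max_right _ _) (by
    simpa only [id_eq] using hk.trans (by linarith)) hT hn fun u => ?_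
  exact (hcon _ (Finset.mem_image_of_mem _ (Finset.mem_univ u))).trans (le_max_left _ _)

end

end Vale.Agent.P090.H117
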