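import Vale.Agent.P090.H117.Core
import Mathlib.Analysis.Normed.Operator.Extend

/-! Lipschitz maps into a Lipschitz-free space extend to linear operators; transfer of the strong
failure along coarse retracts; the abstract description of the free space. -/

namespace Vale.Agent.P090.H117

open Vale.Agent.P090

set_option maxSynthPendingDepth 3

noncomputable section

section Functor

variable {M N : Type} [MetricSpace M] [MetricSpace N] {o : M} {o' : N}

theorem pull_lip {g : N → ↥(LipSpan M o)} {C : ℝ} (hg : ∀ x y, ‖g x - g y‖ ≤ C * dist x y)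
    (φ : Lip0 M o) (x y : N) :
    |((g x : Lip0 M o →L[ℝ] ℝ) φ - (g o' : Lip0 M o →L[ℝ] ℝ) φ) -
      ((g y : Lip0 M o →L[ℝ] ℝ) φ - (g o' : Lip0 M o →L[ℝ] ℝ) φ)| ≤ C * ‖φ‖ * dist x y := by
  have h1 : (g x : Lip0 M o →L[ℝ] ℝ) φ - (g o' : Lip0 M o →L[ℝ] ℝ) φ -
      ((g y : Lip0 M o →L[ℝ] ℝ) φ - (g o' : Lip0 M o →L[ℝ] ℝ) φ) =
      ((g x - g y : ↥(LipSpan M o)) : Lip0 M o →L[ℝ] ℝ) φ := by
    simp only [AddSubgroupClass.coe_sub, sub_apply]
    ring
  rw [h1, ← Real.norm_eq_abs]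
  refine (ContinuousLinearMap.le_opNorm _ _).trans ?_
  calc ‖((g x - g y : ↥(LipSpan M o)) : Lip0 M o →L[ℝ] ℝ)‖ * ‖φ‖
      ≤ (C * dist x y) * ‖φ‖ := mul_le_mul_of_nonneg_right (hg x y) (norm_nonneg _)
    _ = C * ‖φ‖ * dist x y := by ring

/-- Composition of a Lipschitz function with a Lipschitz map into the free space. -/
def pull0 (o' : N) (g : N → ↥(LipSpan M o)) (C : ℝ)
    (hg : ∀ x y, ‖g x - g y‖ ≤ C * dist x y) (φ : Lip0 M o) : Lip0 N o' :=
  mkLip (fun x => (g x : Lip0 M o →L[ℝ] ℝ) φ - (g o' : Lip0 M o →L[ℝ] ℝ) φ)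
    (C * ‖φ‖) (pull_lip hg φ) (sub_self _)

theorem pull0_apply (g : N → ↥(LipSpan M o)) (C : ℝ)
    (hg : ∀ x y, ‖g x - g y‖ ≤ C * dist x y) (φ : Lip0 M o) (x : N) :
    pull0 o' g C hg φ x = (g x : Lip0 M o →L[ℝ] ℝ) φ - (g o' : Lip0 M o →L[ℝ] ℝ) φ := rfl

theorem norm_pull0_le (g : N → ↥(LipSpan M o)) (C : ℝ) (hC : 0 ≤ C)
    (hg : ∀ x y, ‖g x - g y‖ ≤ C * dist x y) (φ : Lip0 M o) :
    ‖pull0 o' g C hg φ‖ ≤ C * ‖φ‖ :=
  Lip0.norm_le (mul_nonneg hC (norm_nonneg _)) (pull_lip hg φ)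

/-- The same as a bounded linear operator. -/
def pull (o' : N) (g : N → ↥(LipSpan M o)) (C : ℝ) (hC : 0 ≤ C)
    (hg : ∀ x y, ‖g x - g y‖ ≤ C * dist x y) : Lip0 M o →L[ℝ] Lip0 N o' :=
  LinearMap.mkContinuous
    { toFun := pull0 o' g C hg
      map_add' := fun φ ψ => Lip0.ext fun x => by
        rw [Lip0.add_apply, pull0_apply, pull0_apply, pull0_apply, map_add, map_add]
        ring
      map_smul' := fun c φ => Lip0.ext fun x => by
        rw [RingHom.id_apply, Lip0.smul_apply, pull0_apply, pull0_apply, map_smul, map_smul,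
          smul_eq_mul, smul_eq_mul]
        ring } C (norm_pull0_le g C hC hg)

theorem pull_apply (g : N → ↥(LipSpan M o)) (C : ℝ) (hC : 0 ≤ C)
    (hg : ∀ x y, ‖g x - g y‖ ≤ C * dist x y) (φ : Lip0 M o) (x : N) :
    pull o' g C hC hg φ x = (g x : Lip0 M o →L[ℝ] ℝ) φ - (g o' : Lip0 M o →L[ℝ] ℝ) φ := rfl

theorem norm_pull_apply_le (g : N → ↥(LipSpan M o)) (C : ℝ) (hC : 0 ≤ C)
    (hg : ∀ x y, ‖g x - g y‖ ≤ C * dist x y) (φ : Lip0 M o) :
    ‖pull o' g C hC hg φ‖ ≤ C * ‖φ‖ := norm_pull0_le g C hC hg φ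

/-- The adjoint of `pull`. -/
def push0 (o' : N) (g : N → ↥(LipSpan M o)) (C : ℝ) (hC : 0 ≤ C)
    (hg : ∀ x y, ‖g x - g y‖ ≤ C * dist x y) :
    (Lip0 N o' →L[ℝ] ℝ) →L[ℝ] (Lip0 M o →L[ℝ] ℝ) :=
  LinearMap.mkContinuous
    { toFun := fun μ => μ.comp (pull o' g C hC hg)
      map_add' := fun _ _ => rfl
      map_smul' := fun _ _ => rfl } C (fun μ => by
        refine ContinuousLinearMap.opNorm_le_bound _ (mul_nonneg hC (norm_nonneg _)) fun f => ?_
        calc ‖μ (pull o' g C hC hg f)‖ ≤ ‖μ‖ * ‖pull o' g C hC hg f‖ := μ.le_opNorm _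
          _ ≤ ‖μ‖ * (C * ‖f‖) := by
              exact mul_le_mul_of_nonneg_left (norm_pull_apply_le g C hC hg f) (norm_nonneg _)
          _ = C * ‖μ‖ * ‖f‖ := by ring)

theorem push0_delta (g : N → ↥(LipSpan M o)) (C : ℝ) (hC : 0 ≤ C)
    (hg : ∀ x y, ‖g x - g y‖ ≤ C * dist x y) (x : N) :
    push0 o' g C hC hg (delta o' x) = ((g x - g o' : ↥(LipSpan M o)) : Lip0 M o →L[ℝ] ℝ) := by
  ext f
  rw [AddSubgroupClass.coe_sub, sub_apply]
  rfl

theorem push0_mem (g : N → ↥(LipSpan M o)) (C : ℝ) (hC : 0 ≤ C)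
    (hg : ∀ x y, ‖g x - g y‖ ≤ C * dist x y) {μ : Lip0 N o' →L[ℝ] ℝ} (hμ : μ ∈ LipSpan N o') :
    push0 o' g C hC hg μ ∈ LipSpan M o := by
  have hcl : IsClosed (LipSpan M o : Set (Lip0 M o →L[ℝ] ℝ)) :=
    Submodule.isClosed_topologicalClosure _
  have h2 : LipSpan N o' ≤ (LipSpan M o).comap
      ((push0 o' g C hC hg : (Lip0 N o' →L[ℝ] ℝ) →L[ℝ] (Lip0 M o →L[ℝ] ℝ)) :
        (Lip0 N o' →L[ℝ] ℝ) →ₗ[ℝ] (Lip0 M o →L[ℝ] ℝ)) := by
    refine Submodule.topologicalClosure_minimal _ ?_ (hcl.preimage (push0 o' g C hC hg).continuous)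
    rw [Submodule.span_le]
    rintro _ ⟨x, rfl⟩
    show push0 o' g C hC hg (delta o' x) ∈ LipSpan M o
    rw [push0_delta]
    exact Subtype.mem _
  exact h2 hμ

/-- The linear extension of a Lipschitz map into the free space. -/
def push (o' : N) (g : N → ↥(LipSpan M o)) (C : ℝ) (hC : 0 ≤ C)
    (hg : ∀ x y, ‖g x - g y‖ ≤ C * dist x y) : ↥(LipSpan N o') →L[ℝ] ↥(LipSpan M o) :=
  ((push0 o' g C hC hg).comp (LipSpan N o').subtypeL).codRestrict (LipSpan M o)
    (fun φ => push0_mem g C hC hg φ.2)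

theorem push_delta (g : N → ↥(LipSpan M o)) (C : ℝ) (hC : 0 ≤ C)
    (hg : ∀ x y, ‖g x - g y‖ ≤ C * dist x y) (x : N) :
    push o' g C hC hg (deltaF o' x) = g x - g o' :=
  Subtype.ext (push0_delta g C hC hg x)

theorem norm_push_le (g : N → ↥(LipSpan M o)) (C : ℝ) (hC : 0 ≤ C)
    (hg : ∀ x y, ‖g x - g y‖ ≤ C * dist x y) : ‖push o' g C hC hg‖ ≤ C := by
  refine ContinuousLinearMap.opNorm_le_bound _ hC fun u => ?_
  have h1 : ‖push0 o' g C hC hg (u : Lip0 N o' →L[ℝ] ℝ)‖ ≤ C * ‖(u : Lip0 N o' →L[ℝ] ℝ)‖ := by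
    refine ((push0 o' g C hC hg).le_opNorm _).trans
      (mul_le_mul_of_nonneg_right ?_ (norm_nonneg _))
    exact LinearMap.mkContinuous_norm_le _ hC _
  exact h1

theorem deltaF_base : deltaF o o = 0 := Subtype.ext (delta_base o)

/-- **Transfer of the strong failure**: if there are Lipschitz maps `f : M → N` and
`g : N → F(M)` with `g (f x)` uniformly close to `δ_x`, then the strong failure passes from `M` to
`N`. -/
theorem Fails.transfer (hF : Fails M o) (f : M → N) (C : ℝ) (hC : 0 ≤ C)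
    (hf : ∀ x y, dist (f x) (f y) ≤ C * dist x y) (g : N → ↥(LipSpan M o)) (C' : ℝ) (hC' : 0 ≤ C')
    (hg : ∀ x y, ‖g x - g y‖ ≤ C' * dist x y) (D : ℝ)
    (hgf : ∀ x, ‖g (f x) - deltaF o x‖ ≤ D) (o' : N) : Fails N o' := by
  classical
  intro lam r
  obtain ⟨A, hA⟩ := hF (C' * (lam * C)) (C' * (2 * r) + 2 * D)
  refine ⟨(insert o A).image f, fun T hT hn => ?_⟩
  by_contra hcon
  push Not at hcon
  have hlam : 0 ≤ lam := (norm_nonneg T).trans hn
  have hdf : ∀ x y, ‖deltaF o' (f x) - deltaF o' (f y)‖ ≤ C * dist x y := fun x y =>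
    (norm_deltaF_sub_le _ _).trans (hf x y)
  set F : ↥(LipSpan M o) →L[ℝ] ↥(LipSpan N o') := push o (fun x => deltaF o' (f x)) C hC hdf with hFdef
  set G : ↥(LipSpan N o') →L[ℝ] ↥(LipSpan M o) := push o' g C' hC' hg with hGdef
  have hT' : IsCompactOperator (G.comp (T.comp F)) := by
    have h1 : IsCompactOperator (T ∘ F) := hT.comp_clm F
    exact IsCompactOperator.clm_comp h1 G
  have hn' : ‖G.comp (T.comp F)‖ ≤ C' * (lam * C) := by
    refine (G.opNorm_comp_le _).trans ?_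
    refine mul_le_mul (norm_push_le g C' hC' hg) ?_ (norm_nonneg _) hC'
    refine (T.opNorm_comp_le _).trans ?_
    exact mul_le_mul hn (norm_push_le _ C hC hdf) (norm_nonneg _) hlam
  obtain ⟨x, hx, hlt⟩ := hA _ hT' hn'
  refine absurd hlt (not_lt.2 ?_)
  have hz : ∀ x ∈ insert o A, ‖T (deltaF o' (f x)) - deltaF o' (f x)‖ ≤ r := fun x hx =>
    hcon _ (Finset.mem_image_of_mem f hx)
  have e1 : F (deltaF o x) = deltaF o' (f x) - deltaF o' (f o) := push_delta _ C hC hdf x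
  have e2 : G (deltaF o' (f x) - deltaF o' (f o)) = g (f x) - g (f o) := by
    rw [map_sub, push_delta, push_delta]; abel
  have e3 : (G.comp (T.comp F)) (deltaF o x) - deltaF o x =
      G ((T (deltaF o' (f x)) - deltaF o' (f x)) - (T (deltaF o' (f o)) - deltaF o' (f o))) +
        ((g (f x) - deltaF o x) - (g (f o) - deltaF o o)) := by
    have : (G.comp (T.comp F)) (deltaF o x) = G (T (F (deltaF o x))) := rfl
    rw [this, e1, deltaF_base]
    have e4 : (T (deltaF o' (f x)) - deltaF o' (f x)) - (T (deltaF o' (f o)) - deltaF o' (f o)) =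
        T (deltaF o' (f x) - deltaF o' (f o)) - (deltaF o' (f x) - deltaF o' (f o)) := by
      rw [map_sub]; abel
    rw [e4, map_sub (f := G), e2]
    abel
  rw [e3]
  refine (norm_add_le _ _).trans (add_le_add ?_ ?_)
  · refine (G.le_opNorm _).trans (mul_le_mul (norm_push_le g C' hC' hg) ?_ (norm_nonneg _) hC')
    refine (norm_sub_le _ _).trans ?_
    have h1 := hz x (Finset.mem_insert_of_mem hx)
    have h2 := hz o (Finset.mem_insert_self _ _)
    linarith
  · refine (norm_sub_le _ _).trans ?_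
    have h1 := hgf x
    have h2 := hgf o
    linarith

/-- Transfer along a coarse Lipschitz retraction between metric spaces. -/
theorem Fails.coarse (hF : Fails M o) (f : M → N) (C : ℝ) (hC : 0 ≤ C)
    (hf : ∀ x y, dist (f x) (f y) ≤ C * dist x y) (g : N → M) (C' : ℝ) (hC' : 0 ≤ C')
    (hg : ∀ x y, dist (g x) (g y) ≤ C' * dist x y) (D : ℝ)
    (hgf : ∀ x, dist (g (f x)) x ≤ D) (o' : N) : Fails N o' :=
  hF.transfer f C hC hf (fun z => deltaF o (g z)) C' hC'
    (fun x y => (norm_deltaF_sub_le _ _).trans (hg x y)) D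
    (fun x => (norm_deltaF_sub_le _ _).trans (hgf x)) o'

end Functor

section Abstract

variable {M : Type} [MetricSpace M] {o : M} {X : Type} [NormedAddCommGroup X] [NormedSpace ℝ X]
  {Y : Type} [NormedAddCommGroup Y] [NormedSpace ℝ Y]

theorem IsLipFree.denseRange {δ : M → X} (h : IsLipFree o X δ) :
    DenseRange (Finsupp.linearCombination ℝ δ) := by
  have h1 := h.dense
  rw [← Finsupp.range_linearCombination] at h1
  exact h1

/-- Two free spaces of the same pointed space are related by a contraction. -/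
theorem IsLipFree.exists_map {δ : M → X} (h : IsLipFree o X δ) {δ' : M → Y}
    (h' : IsLipFree o Y δ') : ∃ Φ : X →L[ℝ] Y, ‖Φ‖ ≤ 1 ∧ ∀ x, Φ (δ x) = δ' x := by
  have := h'.complete
  have hn : ∀ a, ‖Finsupp.linearCombination ℝ δ' a‖ ≤ 1 * ‖Finsupp.linearCombination ℝ δ a‖ := by
    intro a
    rw [one_mul, Finsupp.linearCombination_apply, Finsupp.linearCombination_apply, h.norm, h'.norm]
  refine ⟨(Finsupp.linearCombination ℝ δ').extendOfNorm (Finsupp.linearCombination ℝ δ), ?_, ?_⟩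
  · exact LinearMap.opNorm_extendOfNorm_le h.denseRange zero_le_one hn
  · intro x
    have h1 := LinearMap.extendOfNorm_eq (f := Finsupp.linearCombination ℝ δ')
      (e := Finsupp.linearCombination ℝ δ) h.denseRange ⟨1, hn⟩ (Finsupp.single x 1)
    simpa using h1

/-- The concrete free space satisfies the description. -/
theorem isLipFree_lipSpan : IsLipFree o ↥(LipSpan M o) (deltaF o) where
  complete := by
    have hcl : IsClosed (LipSpan M o : Set (Lip0 M o →L[ℝ] ℝ)) :=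
      Submodule.isClosed_topologicalClosure _
    exact hcl.completeSpace_coe
  dense := by
    intro u
    rw [Metric.mem_closure_iff]
    intro ε hε
    have hu : (u : Lip0 M o →L[ℝ] ℝ) ∈
        closure (Submodule.span ℝ (Set.range (delta o)) : Set (Lip0 M o →L[ℝ] ℝ)) := u.2
    obtain ⟨v, hv, hd⟩ := Metric.mem_closure_iff.1 hu ε hε
    refine ⟨⟨v, Submodule.le_topologicalClosure _ hv⟩, ?_, hd⟩
    have h1 : Submodule.span ℝ (Set.range (delta o)) =
        (Submodule.span ℝ (Set.range (deltaF o))).map (LipSpan M o).subtype := by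
      rw [Submodule.map_span, ← Set.range_comp]
      rfl
    rw [SetLike.mem_coe, h1] at hv
    obtain ⟨w, hw, hwv⟩ := hv
    have : (⟨v, Submodule.le_topologicalClosure _ (h1 ▸ ⟨w, hw, hwv⟩)⟩ : ↥(LipSpan M o)) = w :=
      Subtype.ext hwv.symm
    rw [this]
    exact hw
  norm := by
    intro a
    have hval : ∀ φ : Lip0 M o, ((a.sum fun x c => c • deltaF o x : ↥(LipSpan M o)) :
        Lip0 M o →L[ℝ] ℝ) φ = a.sum fun x c => c * φ x := by
      intro φ
      rw [Finsupp.sum, Finsupp.sum, Submodule.coe_sum, sum_apply]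
      rfl
    set S : Set ℝ := {s : ℝ | ∃ f : M → ℝ, LipschitzWith 1 f ∧ f o = 0 ∧
      s = a.sum fun x c => c * f x} with hS
    set u : Lip0 M o →L[ℝ] ℝ := ((a.sum fun x c => c • deltaF o x : ↥(LipSpan M o)) :
      Lip0 M o →L[ℝ] ℝ) with hu
    have hle : ∀ s ∈ S, s ≤ ‖u‖ := by
      rintro s ⟨f, hf, hf0, rfl⟩
      set φ : Lip0 M o := ⟨f, hf0, 1, hf⟩ with hφ
      have h1 : ‖φ‖ ≤ 1 := Lip0.norm_le zero_le_one fun x y => by
        have := hf.dist_le_mul x y
        rwa [Real.dist_eq] at this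
      have h2 : u φ = a.sum fun x c => c * f x := hval φ
      rw [← h2]
      refine (le_abs_self _).trans ?_
      rw [← Real.norm_eq_abs]
      exact (u.le_opNorm φ).trans (by nlinarith [norm_nonneg u, norm_nonneg φ])
    have hne : S.Nonempty := ⟨0, fun _ => 0, LipschitzWith.const' 0, rfl, by simp⟩
    have hbd : BddAbove S := ⟨‖u‖, hle⟩
    have h0 : 0 ≤ sSup S := le_csSup hbd ⟨fun _ => 0, LipschitzWith.const' 0, rfl, by simp⟩
    refine le_antisymm ?_ (csSup_le hne hle)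
    refine ContinuousLinearMap.opNorm_le_bound _ h0 fun φ => ?_
    rw [Real.norm_eq_abs]
    -- scaled test functions
    have key : ∀ ψ : Lip0 M o, ‖ψ‖ ≤ 1 → u ψ ≤ sSup S := by
      intro ψ hψ
      refine le_csSup hbd ⟨ψ, ?_, Lip0.map_base ψ, hval ψ⟩
      refine LipschitzWith.of_dist_le_mul fun x y => ?_
      rw [Real.dist_eq]
      refine (Lip0.le_norm ψ x y).trans ?_
      exact mul_le_mul_of_nonneg_right (by simpa using hψ) dist_nonneg
    rcases eq_or_ne φ 0 with rfl | hφ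
    · simp
    have hpos : 0 < ‖φ‖ := norm_pos_iff.2 hφ
    have h1 : u φ ≤ sSup S * ‖φ‖ := by
      have h2 := key (‖φ‖⁻¹ • φ) (by
        rw [norm_smul, norm_inv, norm_norm, inv_mul_cancel₀ hpos.ne'])
      rw [map_smul, smul_eq_mul, inv_mul_le_iff₀ hpos] at h2
      linarith
    have h3 : -u φ ≤ sSup S * ‖φ‖ := by
      have h2 := key (-(‖φ‖⁻¹ • φ)) (by
        rw [norm_neg, norm_smul, norm_inv, norm_norm, inv_mul_cancel₀ hpos.ne'])
      rw [map_neg, map_smul, smul_eq_mul, ← mul_neg, inv_mul_le_iff₀ hpos] at h2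
      linarith
    have h4 : |u φ| ≤ sSup S * ‖φ‖ := abs_le.2 ⟨by linarith, h1⟩
    exact h4

/-- The strong failure, for any description of the free space. -/
theorem Fails.abstract (hF : Fails M o) {δ : M → X} (h : IsLipFree o X δ) (lam r : ℝ) :
    ∃ A : Finset M, ∀ T : X →L[ℝ] X, IsCompactOperator T → ‖T‖ ≤ lam →
      ∃ x ∈ A, r < ‖T (δ x) - δ x‖ := by
  obtain ⟨Φ, hΦ, hΦδ⟩ := h.exists_map (isLipFree_lipSpan (M := M) (o := o))
  obtain ⟨Ψ, hΨ, hΨδ⟩ := (isLipFree_lipSpan (M := M) (o := o)).exists_map h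
  obtain ⟨A, hA⟩ := hF lam r
  refine ⟨A, fun T hT hn => ?_⟩
  have hlam : 0 ≤ lam := (norm_nonneg T).trans hn
  have hT' : IsCompactOperator (Φ.comp (T.comp Ψ)) := by
    have h1 : IsCompactOperator (T ∘ Ψ) := hT.comp_clm Ψ
    exact IsCompactOperator.clm_comp h1 Φ
  have hn' : ‖Φ.comp (T.comp Ψ)‖ ≤ lam := by
    refine (Φ.opNorm_comp_le _).trans ?_
    have h1 : ‖T.comp Ψ‖ ≤ lam * 1 :=
      (T.opNorm_comp_le _).trans (mul_le_mul hn hΨ (norm_nonneg _) hlam)
    calc ‖Φ‖ * ‖T.comp Ψ‖ ≤ 1 * (lam * 1) := mul_le_mul hΦ h1 (norm_nonneg _) zero_le_one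
      _ = lam := by ring
  obtain ⟨x, hx, hlt⟩ := hA _ hT' hn'
  refine ⟨x, hx, hlt.trans_le ?_⟩
  have e1 : (Φ.comp (T.comp Ψ)) (deltaF o x) - deltaF o x = Φ (T (δ x) - δ x) := by
    rw [map_sub, hΦδ]
    show Φ (T (Ψ (deltaF o x))) - _ = _
    rw [hΨδ]
  rw [e1]
  exact (Φ.le_opNorm _).trans (by nlinarith [norm_nonneg (T (δ x) - δ x)])

/-- The bounded compact approximation property fails. -/
theorem Fails.not_hasCompactBAP (hF : Fails M o) {δ : M → X} (h : IsLipFree o X δ) :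
    ¬ HasCompactBAP X := by
  rintro ⟨lam, hlam⟩
  obtain ⟨A, hA⟩ := hF.abstract h lam 1
  obtain ⟨T, hT, hn, hc⟩ := hlam (δ '' (A : Set M)) ((A.finite_toSet.image _).isCompact) 1 one_pos
  obtain ⟨x, hx, hlt⟩ := hA T hT hn
  exact absurd (hc (δ x) ⟨x, hx, rfl⟩) (not_lt.2 hlt.le)

theorem HasBAP.compact (h : HasBAP X) : HasCompactBAP X := by
  obtain ⟨lam, hlam⟩ := h
  refine ⟨lam, fun K hK ε hε => ?_⟩
  obtain ⟨T, hT, hn, hc⟩ := hlam K hK ε hε
  refine ⟨T, ?_, hn, hc⟩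
  have : LocallyCompactSpace (LinearMap.range (T : X →ₗ[ℝ] X)) := by
    have := hT
    have : ProperSpace (LinearMap.range (T : X →ₗ[ℝ] X)) := FiniteDimensional.proper ℝ _
    infer_instance
  have h1 : IsCompactOperator (T.codRestrict (LinearMap.range (T : X →ₗ[ℝ] X)) fun x => ⟨x, rfl⟩) :=
    isCompactOperator_of_locallyCompactSpace_dom
      (T.codRestrict (LinearMap.range (T : X →ₗ[ℝ] X)) fun x => ⟨x, rfl⟩)
  exact IsCompactOperator.clm_comp h1 (LinearMap.range (T : X →ₗ[ℝ] X)).subtypeL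

end Abstract

end

end Vale.Agent.P090.H117
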