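import Vale.Agent.P090.H117.Func

/-! Subdivision: a metric space with integer distances is isometric to a set of vertices of a
connected graph, in such a way that the free space of the former is the range of a projection of
norm one of the free space of the latter. -/

namespace Vale.Agent.P090.H117

open Vale.Agent.P090

set_option maxSynthPendingDepth 3

noncomputable section

/-- The path metric of a connected graph. -/
@[reducible] def graphMetric {V : Type} (G : SimpleGraph V) (hG : G.Connected) : MetricSpace V where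
  dist u v := (G.dist u v : ℝ)
  dist_self u := by rw [SimpleGraph.dist_self]; exact Nat.cast_zero
  dist_comm u v := by rw [SimpleGraph.dist_comm]
  dist_triangle u v w := by exact_mod_cast hG.dist_triangle
  eq_of_dist_eq_zero := by
    intro u v h
    exact hG.dist_eq_zero_iff.1 (by exact_mod_cast h)

section Subdivision

variable {M : Type} (nd : M → M → ℕ)

/-- The vertices: the points of `M` and the interior points of a path of length `nd x y` for every
ordered pair `(x, y)`. -/
inductive Sub : Type
  | pt (x : M) : Sub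
  | mid (x y : M) (i : Fin (nd x y - 1)) : Sub

variable {nd} in
/-- forget the bound on the last coordinate -/
def Sub.code : Sub nd → M ⊕ (M × M × ℕ)
  | Sub.pt x => Sum.inl x
  | Sub.mid x y i => Sum.inr (x, y, i)

theorem Sub.code_injective : Function.Injective (Sub.code (nd := nd)) := by
  rintro (x | ⟨x, y, i⟩) (x' | ⟨x', y', i'⟩) h
  · simp only [Sub.code, Sum.inl.injEq] at h
    rw [h]
  · simp [Sub.code] at h
  · simp [Sub.code] at h
  · simp only [Sub.code, Sum.inr.injEq, Prod.mk.injEq] at h
    obtain ⟨rfl, rfl, h⟩ := h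
    rw [Fin.ext h]

/-- The `i`-th point of the path from `x` to `y`. -/
def pp (x y : M) (i : ℕ) : Sub nd :=
  if i = 0 then Sub.pt x else
    if h : i - 1 < nd x y - 1 then Sub.mid x y ⟨i - 1, h⟩ else Sub.pt y

theorem pp_zero (x y : M) : pp nd x y 0 = Sub.pt x := by
  unfold pp; rw [if_pos rfl]

theorem pp_end {x y : M} (h : nd x y ≠ 0) : pp nd x y (nd x y) = Sub.pt y := by
  unfold pp
  rw [if_neg h, dif_neg (by omega)]

theorem pp_mid (x y : M) (i : Fin (nd x y - 1)) :
    pp nd x y (i + 1) = Sub.mid x y i := by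
  unfold pp
  rw [if_neg (by omega), dif_pos (by simp)]
  rfl

/-- The subdivided graph. -/
def GS : SimpleGraph (Sub nd) :=
  SimpleGraph.fromRel fun u v => ∃ x y i, i < nd x y ∧ u = pp nd x y i ∧ v = pp nd x y (i + 1)

theorem exists_walk (x y : M) : ∀ i ≤ nd x y,
    ∃ w : (GS nd).Walk (Sub.pt x) (pp nd x y i), w.length ≤ i := by
  intro i
  induction i with
  | zero =>
    intro _
    rw [pp_zero]
    exact ⟨SimpleGraph.Walk.nil, le_rfl⟩
  | succ i ih =>
    intro hi
    obtain ⟨w, hw⟩ := ih (by omega)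
    by_cases h : pp nd x y i = pp nd x y (i + 1)
    · rw [← h]
      exact ⟨w, by omega⟩
    · have hadj : (GS nd).Adj (pp nd x y i) (pp nd x y (i + 1)) :=
        ⟨h, Or.inl ⟨x, y, i, by omega, rfl, rfl⟩⟩
      exact ⟨w.concat hadj, by rw [SimpleGraph.Walk.length_concat]; omega⟩

variable {nd} in
theorem exists_walk_inl (hnd : ∀ x y, nd x y = 0 → x = y) (x y : M) :
    ∃ w : (GS nd).Walk (Sub.pt x) (Sub.pt y), w.length ≤ nd x y := by
  by_cases h : nd x y = 0
  · obtain rfl := hnd x y h
    exact ⟨SimpleGraph.Walk.nil, Nat.zero_le _⟩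
  · have h1 := exists_walk nd x y (nd x y) le_rfl
    rwa [pp_end nd h] at h1

variable {nd} in
theorem connected [Nonempty M] (hnd : ∀ x y, nd x y = 0 → x = y) : (GS nd).Connected := by
  obtain ⟨o⟩ := ‹Nonempty M›
  have key : ∀ u : Sub nd, (GS nd).Reachable (Sub.pt o) u := by
    rintro (x | ⟨x, y, i⟩)
    · obtain ⟨w, -⟩ := exists_walk_inl hnd o x
      exact ⟨w⟩
    · obtain ⟨w, -⟩ := exists_walk_inl hnd o x
      obtain ⟨w', -⟩ := exists_walk nd x y (i + 1) (by
        have := i.2
        omega)
      rw [pp_mid] at w'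
      exact ⟨w.append w'⟩
  exact { preconnected := fun u v => (key u).symm.trans (key v), nonempty := ⟨Sub.pt o⟩ }

end Subdivision

section Metric

variable {M : Type} [MetricSpace M] {nd : M → M → ℕ}

/-- linear interpolation along the paths -/
def itp (o : M) (nd : M → M → ℕ) : Sub nd → ↥(LipSpan M o)
  | Sub.pt x => deltaF o x
  | Sub.mid x y i => deltaF o x + (((i : ℕ) + 1 : ℝ) / nd x y) • (deltaF o y - deltaF o x)

theorem itp_pp (o : M) (x y : M) {i : ℕ} (hi : i ≤ nd x y) :
    itp o nd (pp nd x y i) = deltaF o x + ((i : ℝ) / nd x y) • (deltaF o y - deltaF o x) := by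
  rcases Nat.eq_zero_or_pos i with rfl | h0
  · rw [pp_zero]
    simp [itp]
  rcases Nat.lt_or_ge i (nd x y) with h | h
  · obtain ⟨i', rfl⟩ : ∃ i', i = i' + 1 := ⟨i - 1, by omega⟩
    have h1 := pp_mid nd x y ⟨i', by omega⟩
    simp only at h1
    rw [h1]
    simp only [itp]
    push_cast
    rfl
  · have h1 : i = nd x y := le_antisymm hi h
    subst h1
    rw [pp_end nd (by omega)]
    have h2 : ((nd x y : ℕ) : ℝ) ≠ 0 := by
      have : nd x y ≠ 0 := by omega
      exact_mod_cast this
    rw [div_self h2, one_smul]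
    simp [itp]

theorem itp_step (hnd : ∀ x y : M, dist x y = nd x y) (o : M) (x y : M) {i : ℕ} (hi : i < nd x y) :
    ‖itp o nd (pp nd x y (i + 1)) - itp o nd (pp nd x y i)‖ ≤ 1 := by
  rw [itp_pp o x y hi, itp_pp o x y hi.le]
  have h0 : (0 : ℝ) < nd x y := by exact_mod_cast (show 0 < nd x y by omega)
  have h1 : deltaF o x + (((i + 1 : ℕ) : ℝ) / nd x y) • (deltaF o y - deltaF o x) -
      (deltaF o x + ((i : ℝ) / nd x y) • (deltaF o y - deltaF o x)) =
      (1 / (nd x y : ℝ)) • (deltaF o y - deltaF o x) := by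
    rw [add_sub_add_left_eq_sub, ← sub_smul]
    congr 1
    push_cast
    ring
  rw [h1, norm_smul, Real.norm_eq_abs, abs_of_nonneg (by positivity)]
  have h2 := norm_deltaF_sub_le (o := o) y x
  rw [dist_comm, hnd] at h2
  calc 1 / (nd x y : ℝ) * ‖deltaF o y - deltaF o x‖ ≤ 1 / (nd x y : ℝ) * (nd x y : ℝ) := by gcongr
    _ = 1 := by field_simp

theorem itp_adj (hnd : ∀ x y : M, dist x y = nd x y) (o : M) {u v : Sub nd} (h : (GS nd).Adj u v) :
    ‖itp o nd u - itp o nd v‖ ≤ 1 := by
  obtain ⟨-, h | h⟩ := h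
  · obtain ⟨x, y, i, hi, rfl, rfl⟩ := h
    rw [norm_sub_rev]
    exact itp_step hnd o x y hi
  · obtain ⟨x, y, i, hi, rfl, rfl⟩ := h
    exact itp_step hnd o x y hi

theorem itp_walk (hnd : ∀ x y : M, dist x y = nd x y) (o : M) {u v : Sub nd}
    (w : (GS nd).Walk u v) : ‖itp o nd u - itp o nd v‖ ≤ w.length := by
  induction w with
  | nil => simp
  | @cons a b c h w ih =>
    have h1 := itp_adj hnd o h
    rw [SimpleGraph.Walk.length_cons]
    push_cast
    calc ‖itp o nd a - itp o nd c‖ = ‖(itp o nd a - itp o nd b) + (itp o nd b - itp o nd c)‖ := by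
          congr 1; abel
      _ ≤ ‖itp o nd a - itp o nd b‖ + ‖itp o nd b - itp o nd c‖ := norm_add_le _ _
      _ ≤ w.length + 1 := by linarith

/-- **The strong failure for the subdivided graph.** -/
theorem fails_graph (hnd : ∀ x y : M, dist x y = nd x y) {o : M} (hF : Fails M o)
    (hG : (GS nd).Connected) (o' : Sub nd) :
    letI := graphMetric (GS nd) hG
    Fails (Sub nd) o' := by
  let _ := graphMetric (GS nd) hG
  have h0 : ∀ x y : M, nd x y = 0 → x = y := by
    intro x y h
    have := hnd x y
    rw [h, Nat.cast_zero] at this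
    exact dist_eq_zero.1 this
  refine hF.transfer (fun x => (Sub.pt x : Sub nd)) 1 zero_le_one (fun x y => ?_) (itp o nd) 1
    zero_le_one (fun u v => ?_) 0 (fun x => ?_) o'
  · obtain ⟨w, hw⟩ := exists_walk_inl h0 x y
    have h1 : (GS nd).dist (Sub.pt x) (Sub.pt y) ≤ nd x y :=
      (SimpleGraph.dist_le w).trans hw
    rw [one_mul, hnd]
    show (((GS nd).dist (Sub.pt x) (Sub.pt y) : ℕ) : ℝ) ≤ _
    exact_mod_cast h1
  · obtain ⟨w, hw⟩ := hG.exists_walk_length_eq_dist u v
    rw [one_mul]
    show _ ≤ (((GS nd).dist u v : ℕ) : ℝ)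
    rw [← hw]
    exact itp_walk hnd o w
  · simp [itp]

end Metric

/-- The graph of the counterexample. -/
theorem exists_graph : ∃ (V : Type) (_ : MetricSpace V) (G : SimpleGraph V), Countable V ∧
    G.Connected ∧ (∀ x y : V, dist x y = G.dist x y) ∧ ∀ o : V, Fails V o := by
  have h0 : ∀ x y : MM, gd blk x y = 0 → x = y := fun x y h => gd_eq_zero blk h
  have : Nonempty MM := ⟨Glue.base blk⟩
  have hG : (GS (gd blk)).Connected := connected h0
  have hc : Countable (Sub (gd blk)) := by
    have : Countable MM := inferInstance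
    exact (Sub.code_injective (gd blk)).countable
  refine ⟨Sub (gd blk), graphMetric _ hG, GS (gd blk), hc, hG, fun _ _ => rfl, fun o => ?_⟩
  exact fails_graph (fun x y => glue_dist blk x y) fails_MM hG o

section Quasi

variable {V N : Type} [MetricSpace V] [MetricSpace N]

/-- The strong failure is inherited by every uniformly discrete space which is quasi-isometric. -/
theorem Fails.quasi {o : V} (hF : Fails V o) (hV : ∀ x y : V, x ≠ y → 1 ≤ dist x y)
    {c : ℝ} (hc : 0 < c) (hN : ∀ x y : N, x ≠ y → c ≤ dist x y) (f : V → N) (C : ℝ)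
    (h1 : ∀ x y, dist (f x) (f y) ≤ C * dist x y + C)
    (h2 : ∀ x y, dist x y ≤ C * dist (f x) (f y) + C)
    (h3 : ∀ z, ∃ x, dist (f x) z ≤ C) (o' : N) : Fails N o' := by
  have hC : 0 ≤ C := by
    have := h1 o o
    rw [dist_self, dist_self] at this
    linarith
  choose g hg using h3
  refine hF.coarse f (2 * C) (by positivity) (fun x y => ?_) g (C + (2 * C ^ 2 + C) / c)
    (by positivity) (fun z z' => ?_) (C * C + C) (fun x => ?_) o'
  · rcases eq_or_ne x y with rfl | hxy
    · simp
    · have h4 := h1 x y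
      have h5 := hV x y hxy
      nlinarith
  · rcases eq_or_ne z z' with rfl | hzz
    · simp
    · have h4 := h2 (g z) (g z')
      have h5 := hN z z' hzz
      have h6 : dist (f (g z)) (f (g z')) ≤ dist z z' + 2 * C := by
        have e1 := dist_triangle4 (f (g z)) z z' (f (g z'))
        have e2 := hg z
        have e3 := hg z'
        rw [dist_comm] at e3
        linarith
      have h7 : 1 ≤ dist z z' / c := (one_le_div hc).2 h5
      have h8 : C * dist (f (g z)) (f (g z')) ≤ C * (dist z z' + 2 * C) :=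
        mul_le_mul_of_nonneg_left h6 hC
      have h9 : (2 * C ^ 2 + C) * 1 ≤ (2 * C ^ 2 + C) * (dist z z' / c) :=
        mul_le_mul_of_nonneg_left h7 (by positivity)
      calc dist (g z) (g z') ≤ C * dist z z' + (2 * C ^ 2 + C) := by nlinarith
        _ ≤ C * dist z z' + (2 * C ^ 2 + C) * (dist z z' / c) := by linarith
        _ = (C + (2 * C ^ 2 + C) / c) * dist z z' := by ring
  · have h4 := h2 (g (f x)) x
    have h5 := hg (f x)
    have h6 := mul_le_mul_of_nonneg_left h5 hC
    linarith

end Quasi

end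

end Vale.Agent.P090.H117
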